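import Vale.Agent.P011.D4T.H64.KCt
import Vale.Agent.P011.D4T.H657.Jq
import Vale.Agent.P011.D4T.H67.KCf

/-!
The change of the quadratic field: the new parameters are definite at the real places.
-/

open NumberField

namespace Vale.Agent.P011.D4T

open Vale.Agent.P011.MPQ Vale.Agent.P011.D4 Vale.Agent.P011.D4.Oct Vale.Agent.P011.E6

section formula

variable {k O : Type} [Field k] [Field O] [Algebra k O] [NeZero (2 : O)] {s : O ≃ₐ[k] O}
  {a b c : kˣ} {α : O}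

/-- The value of the hermitian form attached to `J`. -/
theorem bil_Jq (hα : α ≠ 0) (hα2 : α * α = algebraMap k O a) (hs : s α = -α) (q q' : O)
    (v : OctL O a b c) : bil v (Jq s α q q' v) =
    (v.fst.re + v.fst.imI * α) * s (v.fst.re + v.fst.imI * α) +
    q * (q * q') * ((v.fst.re - v.fst.imI * α) * s (v.fst.re - v.fst.imI * α)) -
    algebraMap k O b * (q * q' * ((v.fst.imJ + v.fst.imK * α) * s (v.fst.imJ + v.fst.imK * α)) +
      q * ((v.fst.imJ - v.fst.imK * α) * s (v.fst.imJ - v.fst.imK * α))) -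
    algebraMap k O c * (q * q' * ((v.snd.re + v.snd.imI * α) * s (v.snd.re + v.snd.imI * α)) +
      q * ((v.snd.re - v.snd.imI * α) * s (v.snd.re - v.snd.imI * α))) +
    algebraMap k O b * algebraMap k O c *
      (q * ((v.snd.imJ + v.snd.imK * α) * s (v.snd.imJ + v.snd.imK * α)) +
      q * q' * ((v.snd.imJ - v.snd.imK * α) * s (v.snd.imJ - v.snd.imK * α))) := by
  have h2 : (2 : O) ≠ 0 := NeZero.ne 2
  have ha : ((up O a : Oˣ) : O) = α * α := by
    rw [hα2]; rfl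
  have hb : algebraMap k O b = ((up O b : Oˣ) : O) := rfl
  have hc : algebraMap k O c = ((up O c : Oˣ) : O) := rfl
  rw [hb, hc]
  simp only [bil_eq, Jq, mq, map_add, map_sub, map_mul, hs, QuaternionAlgebra.re_mul,
    QuaternionAlgebra.imI_mul, QuaternionAlgebra.imJ_mul, QuaternionAlgebra.imK_mul, re_qmap,
    imI_qmap, imJ_qmap, imK_qmap, QuaternionAlgebra.re_star, QuaternionAlgebra.imI_star,
    QuaternionAlgebra.imJ_star, QuaternionAlgebra.imK_star, ha]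
  field_simp
  ring

omit [NeZero (2 : O)] in
theorem mul_conj (W : O →+* ℂ) (hW : ∀ x, W (s x) = (starRingEnd ℂ) (W x)) (x : O) :
    W (x * s x) = ((Complex.normSq (W x) : ℝ) : ℂ) := by
  rw [map_mul, hW, Complex.mul_conj]

/-- Positivity of the hermitian form. -/
theorem pos_Jq (hα : α ≠ 0) (hα2 : α * α = algebraMap k O a) (hs : s α = -α)
    (W : O →+* ℂ) (hW : ∀ x, W (s x) = (starRingEnd ℂ) (W x)) {q q' : O} {rq rq' rb rc : ℝ}
    (hq : W q = (rq : ℂ)) (hq' : W q' = (rq' : ℂ)) (hb : W (algebraMap k O b) = (rb : ℂ))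
    (hc : W (algebraMap k O c) = (rc : ℂ)) (pq : 0 < rq) (pq' : 0 < rq') (nb : rb < 0)
    (nc : rc < 0) {v : OctL O a b c} (hv : v ≠ 0) :
    ∃ r : ℝ, 0 < r ∧ W (bil v (Jq s α q q' v)) = (r : ℂ) := by
  have h2 : (2 : O) ≠ 0 := NeZero.ne 2
  obtain ⟨n1, e1⟩ : ∃ n, n = Complex.normSq (W (v.fst.re + v.fst.imI * α)) := ⟨_, rfl⟩
  obtain ⟨n2, e2⟩ : ∃ n, n = Complex.normSq (W (v.fst.re - v.fst.imI * α)) := ⟨_, rfl⟩
  obtain ⟨n3, e3⟩ : ∃ n, n = Complex.normSq (W (v.fst.imJ + v.fst.imK * α)) := ⟨_, rfl⟩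
  obtain ⟨n4, e4⟩ : ∃ n, n = Complex.normSq (W (v.fst.imJ - v.fst.imK * α)) := ⟨_, rfl⟩
  obtain ⟨n5, e5⟩ : ∃ n, n = Complex.normSq (W (v.snd.re + v.snd.imI * α)) := ⟨_, rfl⟩
  obtain ⟨n6, e6⟩ : ∃ n, n = Complex.normSq (W (v.snd.re - v.snd.imI * α)) := ⟨_, rfl⟩
  obtain ⟨n7, e7⟩ : ∃ n, n = Complex.normSq (W (v.snd.imJ + v.snd.imK * α)) := ⟨_, rfl⟩
  obtain ⟨n8, e8⟩ : ∃ n, n = Complex.normSq (W (v.snd.imJ - v.snd.imK * α)) := ⟨_, rfl⟩
  have g1 : 0 ≤ n1 := by rw [e1]; exact Complex.normSq_nonneg _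
  have g2 : 0 ≤ n2 := by rw [e2]; exact Complex.normSq_nonneg _
  have g3 : 0 ≤ n3 := by rw [e3]; exact Complex.normSq_nonneg _
  have g4 : 0 ≤ n4 := by rw [e4]; exact Complex.normSq_nonneg _
  have g5 : 0 ≤ n5 := by rw [e5]; exact Complex.normSq_nonneg _
  have g6 : 0 ≤ n6 := by rw [e6]; exact Complex.normSq_nonneg _
  have g7 : 0 ≤ n7 := by rw [e7]; exact Complex.normSq_nonneg _
  have g8 : 0 ≤ n8 := by rw [e8]; exact Complex.normSq_nonneg _
  refine ⟨n1 + rq * (rq * rq') * n2 - rb * (rq * rq' * n3 + rq * n4) -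
    rc * (rq * rq' * n5 + rq * n6) + rb * rc * (rq * n7 + rq * rq' * n8), ?_, ?_⟩
  · have hnb : 0 < -rb := neg_pos.2 nb
    have hnc : 0 < -rc := neg_pos.2 nc
    have t2 : 0 ≤ rq * (rq * rq') * n2 := by positivity
    have t3 : 0 ≤ (-rb) * (rq * rq' * n3) := by positivity
    have t4 : 0 ≤ (-rb) * (rq * n4) := by positivity
    have t5 : 0 ≤ (-rc) * (rq * rq' * n5) := by positivity
    have t6 : 0 ≤ (-rc) * (rq * n6) := by positivity
    have t7 : 0 ≤ (-rb) * (-rc) * (rq * n7) := by positivity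
    have t8 : 0 ≤ (-rb) * (-rc) * (rq * rq' * n8) := by positivity
    by_contra hcon
    apply hv
    have z1 : n1 = 0 := by linarith
    have z2 : rq * (rq * rq') * n2 = 0 := by linarith
    have z3 : (-rb) * (rq * rq' * n3) = 0 := by linarith
    have z4 : (-rb) * (rq * n4) = 0 := by linarith
    have z5 : (-rc) * (rq * rq' * n5) = 0 := by linarith
    have z6 : (-rc) * (rq * n6) = 0 := by linarith
    have z7 : (-rb) * (-rc) * (rq * n7) = 0 := by linarith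
    have z8 : (-rb) * (-rc) * (rq * rq' * n8) = 0 := by linarith
    have r1 : W (v.fst.re + v.fst.imI * α) = 0 := by
      rwa [e1, Complex.normSq_eq_zero] at z1
    have r2 : W (v.fst.re - v.fst.imI * α) = 0 := by
      have h : n2 = 0 := by simpa [pq.ne', pq'.ne', hnb.ne', hnc.ne'] using z2
      rwa [e2, Complex.normSq_eq_zero] at h
    have r3 : W (v.fst.imJ + v.fst.imK * α) = 0 := by
      have h : n3 = 0 := by simpa [pq.ne', pq'.ne', nb.ne, nc.ne] using z3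
      rwa [e3, Complex.normSq_eq_zero] at h
    have r4 : W (v.fst.imJ - v.fst.imK * α) = 0 := by
      have h : n4 = 0 := by simpa [pq.ne', pq'.ne', nb.ne, nc.ne] using z4
      rwa [e4, Complex.normSq_eq_zero] at h
    have r5 : W (v.snd.re + v.snd.imI * α) = 0 := by
      have h : n5 = 0 := by simpa [pq.ne', pq'.ne', nb.ne, nc.ne] using z5
      rwa [e5, Complex.normSq_eq_zero] at h
    have r6 : W (v.snd.re - v.snd.imI * α) = 0 := by
      have h : n6 = 0 := by simpa [pq.ne', pq'.ne', nb.ne, nc.ne] using z6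
      rwa [e6, Complex.normSq_eq_zero] at h
    have r7 : W (v.snd.imJ + v.snd.imK * α) = 0 := by
      have h : n7 = 0 := by simpa [pq.ne', pq'.ne', nb.ne, nc.ne] using z7
      rwa [e7, Complex.normSq_eq_zero] at h
    have r8 : W (v.snd.imJ - v.snd.imK * α) = 0 := by
      have h : n8 = 0 := by simpa [pq.ne', pq'.ne', nb.ne, nc.ne] using z8
      rwa [e8, Complex.normSq_eq_zero] at h
    rw [map_eq_zero] at r1 r2 r3 r4 r5 r6 r7 r8
    have key : ∀ x y : O, x + y * α = 0 → x - y * α = 0 → x = 0 ∧ y = 0 := by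
      intro x y h1 h2'
      have hx : x = 0 := by
        have : (2 : O) * x = 0 := by linear_combination h1 + h2'
        exact (mul_eq_zero.1 this).resolve_left h2
      have hy : y = 0 := by
        rw [hx, zero_add] at h1
        exact (mul_eq_zero.1 h1).resolve_right hα
      exact ⟨hx, hy⟩
    obtain ⟨k1, k2⟩ := key _ _ r1 r2
    obtain ⟨k3, k4⟩ := key _ _ r3 r4
    obtain ⟨k5, k6⟩ := key _ _ r5 r6
    obtain ⟨k7, k8⟩ := key _ _ r7 r8
    exact ext8 k1 k2 k3 k4 k5 k6 k7 k8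
  · rw [bil_Jq hα hα2 hs]
    obtain ⟨N1, E1⟩ : ∃ N, N = (v.fst.re + v.fst.imI * α) * s (v.fst.re + v.fst.imI * α) := ⟨_, rfl⟩
    obtain ⟨N2, E2⟩ : ∃ N, N = (v.fst.re - v.fst.imI * α) * s (v.fst.re - v.fst.imI * α) := ⟨_, rfl⟩
    obtain ⟨N3, E3⟩ : ∃ N, N = (v.fst.imJ + v.fst.imK * α) * s (v.fst.imJ + v.fst.imK * α) := ⟨_, rfl⟩
    obtain ⟨N4, E4⟩ : ∃ N, N = (v.fst.imJ - v.fst.imK * α) * s (v.fst.imJ - v.fst.imK * α) := ⟨_, rfl⟩
    obtain ⟨N5, E5⟩ : ∃ N, N = (v.snd.re + v.snd.imI * α) * s (v.snd.re + v.snd.imI * α) := ⟨_, rfl⟩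
    obtain ⟨N6, E6⟩ : ∃ N, N = (v.snd.re - v.snd.imI * α) * s (v.snd.re - v.snd.imI * α) := ⟨_, rfl⟩
    obtain ⟨N7, E7⟩ : ∃ N, N = (v.snd.imJ + v.snd.imK * α) * s (v.snd.imJ + v.snd.imK * α) := ⟨_, rfl⟩
    obtain ⟨N8, E8⟩ : ∃ N, N = (v.snd.imJ - v.snd.imK * α) * s (v.snd.imJ - v.snd.imK * α) := ⟨_, rfl⟩
    have K1 : W N1 = ((n1 : ℝ) : ℂ) := by rw [E1, mul_conj W hW, ← e1]
    have K2 : W N2 = ((n2 : ℝ) : ℂ) := by rw [E2, mul_conj W hW, ← e2]
    have K3 : W N3 = ((n3 : ℝ) : ℂ) := by rw [E3, mul_conj W hW, ← e3]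
    have K4 : W N4 = ((n4 : ℝ) : ℂ) := by rw [E4, mul_conj W hW, ← e4]
    have K5 : W N5 = ((n5 : ℝ) : ℂ) := by rw [E5, mul_conj W hW, ← e5]
    have K6 : W N6 = ((n6 : ℝ) : ℂ) := by rw [E6, mul_conj W hW, ← e6]
    have K7 : W N7 = ((n7 : ℝ) : ℂ) := by rw [E7, mul_conj W hW, ← e7]
    have K8 : W N8 = ((n8 : ℝ) : ℂ) := by rw [E8, mul_conj W hW, ← e8]
    rw [← E1, ← E2, ← E3, ← E4, ← E5, ← E6, ← E7, ← E8]
    simp only [map_add, map_sub, map_mul, hq, hq', hb, hc, K1, K2, K3, K4, K5, K6, K7, K8]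
    push_cast
    ring

end formula

section core

variable {k O : Type} [Field k] [Field O] [Algebra k O] [NeZero (2 : O)] {σ τ : O ≃ₐ[k] O}
  {a b c a1 b1 c1 : kˣ} {α β q q' q1 q1' : O}

omit [NeZero (2 : O)] in
/-- The map `J` for the product of two involutions. -/
theorem Jq_comp (hσβ : σ β = β) (hq1 : σ q1 = q1) (hq1' : σ q1' = q1') (x : OctL O a b c) :
    omap σ (Jq τ β q1 q1' x) = Jq (τ.trans σ) β q1 q1' x := by
  have e : ∀ t : O, σ t = t → qmap σ (mq a b β t) = mq a b β t := by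
    intro t ht
    ext
    · change σ ((t + 1) / 2) = (t + 1) / 2
      rw [map_div₀, map_add, ht, map_one, map_ofNat]
    · change σ ((t - 1) / (2 * β)) = (t - 1) / (2 * β)
      rw [map_div₀, map_sub, ht, map_one, map_mul, map_ofNat, hσβ]
    · exact map_zero σ
    · exact map_zero σ
  have h1 : σ (q1 * q1') = q1 * q1' := by rw [map_mul, hq1, hq1']
  ext1
  · change qmap σ (mq a b β q1 * qmap τ x.fst * mq a b β (q1 * q1')) =
      mq a b β q1 * qmap (τ.trans σ) x.fst * mq a b β (q1 * q1')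
    rw [qmap_mul, qmap_mul, e q1 hq1, e _ h1]
    rfl
  · change qmap σ (qmap τ x.snd * (mq a b β q1 * star (mq a b β (q1 * q1')))) =
      qmap (τ.trans σ) x.snd * (mq a b β q1 * star (mq a b β (q1 * q1')))
    rw [qmap_mul, qmap_mul, qmap_star, e q1 hq1, e _ h1]
    rfl

/-- The signs of the new parameters at a complex place. -/
theorem real_core (hα : α ≠ 0) (hα2 : α * α = algebraMap k O a) (hσα : σ α = -α) (hτα : τ α = α)
    (hβ : β ≠ 0) (hβ2 : β * β = algebraMap k O a1) (hσβ : σ β = β) (hτβ : τ β = -β)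
    (hq1 : σ q1 = q1) (hq1' : σ q1' = q1')
    (u : OctL O a1 b1 c1 ≃ₗ[O] OctL O a b c) {f s t : O}
    (hbil : ∀ x y, bil (u x) (u y) = f * bil x y)
    (hJ : ∀ x, Jq σ α q q' (u x) = s • u (omap σ x))
    (hT : ∀ x, omap τ (u x) = t • u (Jq τ β q1 q1' x))
    (W : O →+* ℂ) (hW : ∀ x, W (σ (τ x)) = (starRingEnd ℂ) (W x))
    {rq rq' rb rc r1 r1' rb1 rc1 : ℝ}
    (wq : W q = (rq : ℂ)) (wq' : W q' = (rq' : ℂ)) (wb : W (algebraMap k O b) = (rb : ℂ))
    (wc : W (algebraMap k O c) = (rc : ℂ)) (pq : 0 < rq) (pq' : 0 < rq') (nb : rb < 0)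
    (nc : rc < 0) (w1 : W q1 = (r1 : ℂ)) (w1' : W q1' = (r1' : ℂ))
    (wb1 : W (algebraMap k O b1) = (rb1 : ℂ)) (wc1 : W (algebraMap k O c1) = (rc1 : ℂ)) :
    0 < r1' ∧ rb1 * (r1 * r1') < 0 ∧ rc1 * (r1 * r1') < 0 := by
  have h2 : (2 : O) ≠ 0 := NeZero.ne 2
  have hsα : (τ.trans σ) α = -α := by
    rw [AlgEquiv.trans_apply, hτα, hσα]
  have hsβ : (τ.trans σ) β = -β := by
    rw [AlgEquiv.trans_apply, hτβ, map_neg, hσβ]
  -- the form of the new algebra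
  have key : ∀ y : OctL O a1 b1 c1, bil (u y) (Jq (τ.trans σ) α q q' (u y)) =
      (σ t * s * f) * bil y (Jq (τ.trans σ) β q1 q1' y) := by
    intro y
    have e1 : Jq (τ.trans σ) α q q' (u y) = Jq σ α q q' (omap τ (u y)) := rfl
    rw [e1, hT, Jq_smul, hJ, bil_smul_right, bil_smul_right, hbil,
      Jq_comp hσβ hq1 hq1']
    ring
  have hpos : ∀ y : OctL O a1 b1 c1, y ≠ 0 → ∃ r : ℝ, 0 < r ∧
      W (σ t * s * f) * W (bil y (Jq (τ.trans σ) β q1 q1' y)) = (r : ℂ) := by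
    intro y hy
    have hy' : u y ≠ 0 := fun h => hy (u.injective (by rw [h, map_zero]))
    obtain ⟨r, hr, h⟩ := pos_Jq hα hα2 hsα W hW wq wq' wb wc pq pq' nb nc hy'
    refine ⟨r, hr, ?_⟩
    rw [← map_mul, ← key, h]
  have hinv : (1 / (2 * β)) * β = 1 / 2 := by field_simp
  have hs1 : (τ.trans σ) 1 = 1 := map_one _
  -- the four elements
  have y1 : bil (⟨⟨1 / 2, 1 / (2 * β), 0, 0⟩, 0⟩ : OctL O a1 b1 c1)
      (Jq (τ.trans σ) β q1 q1' ⟨⟨1 / 2, 1 / (2 * β), 0, 0⟩, 0⟩) = 1 := by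
    rw [bil_Jq hβ hβ2 hsβ]
    change (1 / 2 + 1 / (2 * β) * β) * (τ.trans σ) (1 / 2 + 1 / (2 * β) * β) +
      q1 * (q1 * q1') * ((1 / 2 - 1 / (2 * β) * β) * (τ.trans σ) (1 / 2 - 1 / (2 * β) * β)) -
      algebraMap k O b1 * (q1 * q1' * (((0 : O) + 0 * β) * (τ.trans σ) (0 + 0 * β)) +
        q1 * (((0 : O) - 0 * β) * (τ.trans σ) (0 - 0 * β))) -
      algebraMap k O c1 * (q1 * q1' * (((0 : O) + 0 * β) * (τ.trans σ) (0 + 0 * β)) +
        q1 * (((0 : O) - 0 * β) * (τ.trans σ) (0 - 0 * β))) +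
      algebraMap k O b1 * algebraMap k O c1 *
        (q1 * (((0 : O) + 0 * β) * (τ.trans σ) (0 + 0 * β)) +
        q1 * q1' * (((0 : O) - 0 * β) * (τ.trans σ) (0 - 0 * β))) = 1
    rw [hinv, show (1 / 2 + 1 / 2 : O) = 1 by field_simp; norm_num, hs1]
    ring
  have y2 : bil (⟨⟨1 / 2, -(1 / (2 * β)), 0, 0⟩, 0⟩ : OctL O a1 b1 c1)
      (Jq (τ.trans σ) β q1 q1' ⟨⟨1 / 2, -(1 / (2 * β)), 0, 0⟩, 0⟩) = q1 * (q1 * q1') := by
    rw [bil_Jq hβ hβ2 hsβ]
    change (1 / 2 + -(1 / (2 * β)) * β) * (τ.trans σ) (1 / 2 + -(1 / (2 * β)) * β) +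
      q1 * (q1 * q1') * ((1 / 2 - -(1 / (2 * β)) * β) * (τ.trans σ) (1 / 2 - -(1 / (2 * β)) * β)) -
      algebraMap k O b1 * (q1 * q1' * (((0 : O) + 0 * β) * (τ.trans σ) (0 + 0 * β)) +
        q1 * (((0 : O) - 0 * β) * (τ.trans σ) (0 - 0 * β))) -
      algebraMap k O c1 * (q1 * q1' * (((0 : O) + 0 * β) * (τ.trans σ) (0 + 0 * β)) +
        q1 * (((0 : O) - 0 * β) * (τ.trans σ) (0 - 0 * β))) +
      algebraMap k O b1 * algebraMap k O c1 *
        (q1 * (((0 : O) + 0 * β) * (τ.trans σ) (0 + 0 * β)) +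
        q1 * q1' * (((0 : O) - 0 * β) * (τ.trans σ) (0 - 0 * β))) = _
    rw [neg_mul, hinv, show (1 / 2 + -(1 / 2) : O) = 0 by ring,
      show (1 / 2 - -(1 / 2) : O) = 1 by field_simp; norm_num, hs1]
    ring
  have y3 : bil (⟨⟨0, 0, 1 / 2, 1 / (2 * β)⟩, 0⟩ : OctL O a1 b1 c1)
      (Jq (τ.trans σ) β q1 q1' ⟨⟨0, 0, 1 / 2, 1 / (2 * β)⟩, 0⟩) =
      -(algebraMap k O b1 * (q1 * q1')) := by
    rw [bil_Jq hβ hβ2 hsβ]
    change ((0 : O) + 0 * β) * (τ.trans σ) (0 + 0 * β) +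
      q1 * (q1 * q1') * (((0 : O) - 0 * β) * (τ.trans σ) (0 - 0 * β)) -
      algebraMap k O b1 * (q1 * q1' * ((1 / 2 + 1 / (2 * β) * β) *
        (τ.trans σ) (1 / 2 + 1 / (2 * β) * β)) +
        q1 * ((1 / 2 - 1 / (2 * β) * β) * (τ.trans σ) (1 / 2 - 1 / (2 * β) * β))) -
      algebraMap k O c1 * (q1 * q1' * (((0 : O) + 0 * β) * (τ.trans σ) (0 + 0 * β)) +
        q1 * (((0 : O) - 0 * β) * (τ.trans σ) (0 - 0 * β))) +
      algebraMap k O b1 * algebraMap k O c1 *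
        (q1 * (((0 : O) + 0 * β) * (τ.trans σ) (0 + 0 * β)) +
        q1 * q1' * (((0 : O) - 0 * β) * (τ.trans σ) (0 - 0 * β))) = _
    rw [hinv, show (1 / 2 + 1 / 2 : O) = 1 by field_simp; norm_num, hs1]
    ring
  have y4 : bil (⟨0, ⟨1 / 2, 1 / (2 * β), 0, 0⟩⟩ : OctL O a1 b1 c1)
      (Jq (τ.trans σ) β q1 q1' ⟨0, ⟨1 / 2, 1 / (2 * β), 0, 0⟩⟩) =
      -(algebraMap k O c1 * (q1 * q1')) := by
    rw [bil_Jq hβ hβ2 hsβ]
    change ((0 : O) + 0 * β) * (τ.trans σ) (0 + 0 * β) +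
      q1 * (q1 * q1') * (((0 : O) - 0 * β) * (τ.trans σ) (0 - 0 * β)) -
      algebraMap k O b1 * (q1 * q1' * (((0 : O) + 0 * β) * (τ.trans σ) (0 + 0 * β)) +
        q1 * (((0 : O) - 0 * β) * (τ.trans σ) (0 - 0 * β))) -
      algebraMap k O c1 * (q1 * q1' * ((1 / 2 + 1 / (2 * β) * β) *
        (τ.trans σ) (1 / 2 + 1 / (2 * β) * β)) +
        q1 * ((1 / 2 - 1 / (2 * β) * β) * (τ.trans σ) (1 / 2 - 1 / (2 * β) * β))) +
      algebraMap k O b1 * algebraMap k O c1 *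
        (q1 * (((0 : O) + 0 * β) * (τ.trans σ) (0 + 0 * β)) +
        q1 * q1' * (((0 : O) - 0 * β) * (τ.trans σ) (0 - 0 * β))) = _
    rw [hinv, show (1 / 2 + 1 / 2 : O) = 1 by field_simp; norm_num, hs1]
    ring
  have hhalf : (1 / 2 : O) ≠ 0 := div_ne_zero one_ne_zero h2
  obtain ⟨p1, hp1, k1⟩ := hpos (⟨⟨1 / 2, 1 / (2 * β), 0, 0⟩, 0⟩ : OctL O a1 b1 c1) (fun h =>
    hhalf (congrArg (fun z : OctL O a1 b1 c1 => z.fst.re) h))
  obtain ⟨p2, hp2, k2⟩ := hpos (⟨⟨1 / 2, -(1 / (2 * β)), 0, 0⟩, 0⟩ : OctL O a1 b1 c1) (fun h =>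
    hhalf (congrArg (fun z : OctL O a1 b1 c1 => z.fst.re) h))
  obtain ⟨p3, hp3, k3⟩ := hpos (⟨⟨0, 0, 1 / 2, 1 / (2 * β)⟩, 0⟩ : OctL O a1 b1 c1) (fun h =>
    hhalf (congrArg (fun z : OctL O a1 b1 c1 => z.fst.imJ) h))
  obtain ⟨p4, hp4, k4⟩ := hpos (⟨0, ⟨1 / 2, 1 / (2 * β), 0, 0⟩⟩ : OctL O a1 b1 c1) (fun h =>
    hhalf (congrArg (fun z : OctL O a1 b1 c1 => z.snd.re) h))
  rw [y1, map_one, mul_one] at k1
  rw [y2, k1, map_mul, map_mul, w1, w1'] at k2
  rw [y3, k1, map_neg, map_mul, map_mul, wb1, w1, w1'] at k3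
  rw [y4, k1, map_neg, map_mul, map_mul, wc1, w1, w1'] at k4
  have m2 : p1 * (r1 * (r1 * r1')) = p2 := by exact_mod_cast k2
  have m3 : p1 * -(rb1 * (r1 * r1')) = p3 := by exact_mod_cast k3
  have m4 : p1 * -(rc1 * (r1 * r1')) = p4 := by exact_mod_cast k4
  have n2 : 0 < r1 * (r1 * r1') := by
    rw [← m2] at hp2
    exact (mul_pos_iff_of_pos_left hp1).mp hp2
  have n3 : 0 < -(rb1 * (r1 * r1')) := by
    rw [← m3] at hp3
    exact (mul_pos_iff_of_pos_left hp1).mp hp3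
  have n4 : 0 < -(rc1 * (r1 * r1')) := by
    rw [← m4] at hp4
    exact (mul_pos_iff_of_pos_left hp1).mp hp4
  refine ⟨?_, by linarith, by linarith⟩
  by_contra hcon
  have : r1 * (r1 * r1') ≤ 0 := by
    have h5 : r1 * (r1 * r1') = r1 ^ 2 * r1' := by ring
    rw [h5]
    exact mul_nonpos_of_nonneg_of_nonpos (sq_nonneg _) (not_lt.mp hcon)
  linarith

end core

/-- An octonion algebra which is definite at a real place is a division algebra. -/
theorem division_of_neg {k : Type} [Field k] {a b c : kˣ} (τ : k →+* ℝ) (ha : τ a < 0)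
    (hb : τ b < 0) (hc : τ c < 0) : Division a b c := by
  intro x hx
  simp only [Oct.norm, nrd] at hx
  have h := congrArg τ hx
  simp only [map_sub, map_add, map_mul, map_pow, map_zero] at h
  have hna : 0 < -τ a := neg_pos.2 ha
  have hnb : 0 < -τ b := neg_pos.2 hb
  have hnc : 0 < -τ c := neg_pos.2 hc
  have t1 : 0 ≤ τ x.fst.re ^ 2 := sq_nonneg _
  have t2 : 0 ≤ (-τ a) * τ x.fst.imI ^ 2 := by positivity
  have t3 : 0 ≤ (-τ b) * τ x.fst.imJ ^ 2 := by positivity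
  have t4 : 0 ≤ (-τ a) * (-τ b) * τ x.fst.imK ^ 2 := by positivity
  have t5 : 0 ≤ (-τ c) * τ x.snd.re ^ 2 := by positivity
  have t6 : 0 ≤ (-τ c) * ((-τ a) * τ x.snd.imI ^ 2) := by positivity
  have t7 : 0 ≤ (-τ c) * ((-τ b) * τ x.snd.imJ ^ 2) := by positivity
  have t8 : 0 ≤ (-τ c) * ((-τ a) * (-τ b) * τ x.snd.imK ^ 2) := by positivity
  have hsum : τ x.fst.re ^ 2 +
      (-τ a) * τ x.fst.imI ^ 2 +
      (-τ b) * τ x.fst.imJ ^ 2 +
      (-τ a) * (-τ b) * τ x.fst.imK ^ 2 +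
      (-τ c) * τ x.snd.re ^ 2 +
      (-τ c) * ((-τ a) * τ x.snd.imI ^ 2) +
      (-τ c) * ((-τ b) * τ x.snd.imJ ^ 2) +
      (-τ c) * ((-τ a) * (-τ b) * τ x.snd.imK ^ 2) = 0 := by
    linear_combination h
  have z1 : τ x.fst.re ^ 2 = 0 := by linarith
  have z2 : (-τ a) * τ x.fst.imI ^ 2 = 0 := by linarith
  have z3 : (-τ b) * τ x.fst.imJ ^ 2 = 0 := by linarith
  have z4 : (-τ a) * (-τ b) * τ x.fst.imK ^ 2 = 0 := by linarith
  have z5 : (-τ c) * τ x.snd.re ^ 2 = 0 := by linarith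
  have z6 : (-τ c) * ((-τ a) * τ x.snd.imI ^ 2) = 0 := by linarith
  have z7 : (-τ c) * ((-τ b) * τ x.snd.imJ ^ 2) = 0 := by linarith
  have z8 : (-τ c) * ((-τ a) * (-τ b) * τ x.snd.imK ^ 2) = 0 := by linarith
  refine ext8 ?_ ?_ ?_ ?_ ?_ ?_ ?_ ?_
  · simpa using z1
  · simpa [ha.ne, hb.ne, hc.ne] using z2
  · simpa [ha.ne, hb.ne, hc.ne] using z3
  · simpa [ha.ne, hb.ne, hc.ne] using z4
  · simpa [ha.ne, hb.ne, hc.ne] using z5
  · simpa [ha.ne, hb.ne, hc.ne] using z6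
  · simpa [ha.ne, hb.ne, hc.ne] using z7
  · simpa [ha.ne, hb.ne, hc.ne] using z8

section main

variable {k L E : Type} [Field k] [NumberField k] [Field L] [NumberField L] [Field E]
  [Algebra k L] [Algebra k E] [Algebra L E] [IsScalarTower k L E] [NeZero (2 : E)]
  {ρ σ : E ≃ₐ[k] E} {ρL : L ≃ₐ[k] L} {α : E} {a b c : kˣ} {q : Lˣ}
  (H : Hy ρ σ ρL α a b c q)
  {a1 : kˣ} {E1 O : Type} [Field E1] [Field O] [NumberField O] [Algebra k E1] [Algebra L E1]
  [Algebra k O] [Algebra L O] [Algebra E O] [Algebra E1 O] [IsScalarTower k L O]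
  [IsScalarTower L E O] [IsScalarTower k E O] [IsScalarTower k E1 O]
  {ρ1 σ1 : E1 ≃ₐ[k] E1} {α1 : E1} {ρ' σ' τ' : O ≃ₐ[k] O}
  (T : Tow ρ σ ρL (a1 : k) ρ1 σ1 α1 ρ' σ' τ')

theorem conj_of_sq {z : ℂ} {r : ℝ} (hr : r < 0) (h : z * z = (r : ℂ)) :
    (starRingEnd ℂ) z = -z := by
  have h1 := congrArg Complex.re h
  have h2 := congrArg Complex.im h
  simp only [Complex.mul_re, Complex.mul_im, Complex.ofReal_re, Complex.ofReal_im] at h1 h2
  have hx : z.re = 0 := by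
    by_contra hx
    have hy : z.im = 0 := by
      have : 2 * (z.re * z.im) = 0 := by linarith
      rcases mul_eq_zero.mp this with h3 | h3
      · norm_num at h3
      · exact (mul_eq_zero.mp h3).resolve_left hx
    rw [hy] at h1
    nlinarith [mul_self_nonneg z.re]
  apply Complex.ext
  · simp [hx]
  · simp

include H T

omit [NumberField k] [IsScalarTower k E O] in
/-- The complex place over a real place of `L`. -/
theorem exists_W {w : L →+* ℝ} (ha : w (algebraMap k L a) < 0)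
    (ha1 : w (algebraMap k L a1) < 0) : ∃ W : O →+* ℂ,
    (∀ t : L, W (algebraMap L O t) = ((w t : ℝ) : ℂ)) ∧
      ∀ x, W (σ' (τ' x)) = (starRingEnd ℂ) (W x) := by
  let f : L →+* ℂ := Complex.ofRealHom.comp w
  let _ := f.toAlgebra
  have _halg : Algebra.IsAlgebraic L O := Algebra.IsAlgebraic.tower_top (K := ℚ) L
  let W : O →ₐ[L] ℂ := IsAlgClosed.lift
  have hWL : ∀ t : L, W (algebraMap L O t) = ((w t : ℝ) : ℂ) := fun t => W.commutes t
  have hWL' : ∀ t : L, W (algebraMap E O (algebraMap L E t)) = ((w t : ℝ) : ℂ) := fun t => by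
    rw [← IsScalarTower.algebraMap_apply, hWL]
  have hα : (starRingEnd ℂ) (W (algebraMap E O α)) = -W (algebraMap E O α) := by
    refine conj_of_sq ha ?_
    rw [← map_mul, ← map_mul, H.α2, IsScalarTower.algebraMap_apply k L E, hWL']
  obtain ⟨β, hβ⟩ : ∃ β, β = algebraMap E1 O α1 := ⟨_, rfl⟩
  have hββ : β * β = algebraMap k O a1 := by
    rw [hβ, ← map_mul, T.α12, ← IsScalarTower.algebraMap_apply]
  have hβc : (starRingEnd ℂ) (W β) = -W β := by
    refine conj_of_sq ha1 ?_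
    rw [← map_mul, hββ, IsScalarTower.algebraMap_apply k L O, hWL]
  have hβ0 : β ≠ 0 := by
    rintro h0
    rw [h0, mul_zero] at hββ
    exact (map_ne_zero (algebraMap k O)).mpr a1.ne_zero hββ.symm
  have hσβ : σ' β = β := by rw [hβ, T.σE1]
  have hτβ : τ' β = -β := by rw [hβ, T.τE1, T.σα1, map_neg]
  have hE : ∀ y : E, W (algebraMap E O (σ y)) = (starRingEnd ℂ) (W (algebraMap E O y)) := by
    intro y
    obtain ⟨t0, t1, rfl⟩ := H.coord y
    rw [map_add σ, map_mul σ, H.σL, H.σL, H.σα]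
    simp only [map_add, map_mul, map_neg, hWL', hα, Complex.conj_ofReal]
  have h2 : (2 : O) ≠ 0 := two_ne_zero
  refine ⟨(W : O →+* ℂ), hWL, fun x => ?_⟩
  change W (σ' (τ' x)) = (starRingEnd ℂ) (W x)
  obtain ⟨y0, hy0⟩ := T.fixτ ((x + τ' x) / 2) (by
    rw [map_div₀, map_add, T.τ2, map_ofNat, add_comm])
  obtain ⟨y1, hy1⟩ := T.fixτ ((x - τ' x) / (2 * β)) (by
    rw [map_div₀, map_sub, T.τ2, map_mul, map_ofNat, hτβ, mul_neg, div_neg, ← neg_div, neg_sub])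
  have hx : x = algebraMap E O y0 + algebraMap E O y1 * β := by
    rw [hy0, hy1]
    field_simp
    ring
  rw [hx]
  simp only [map_add, map_mul, T.τE, T.σE, hτβ, hσβ, map_neg, hE, hβc]

/-- **KCr**: the new parameters satisfy the hypotheses of the model. -/
theorem hy_new (hDs : ∀ τ : k →+* ℝ, τ (a1 : k) < 0 → τ (a : k) < 0)
    (hDw : ∃ w : Qt a b, w.re = 0 ∧ w * w = (a1 : k) • 1)
    {b1 c1 : kˣ} {q1 : O} (hN : H67.N3 ρ' q1 = 1) (hσq1 : σ' q1 = q1) (hτq1 : τ' q1 = q1)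
    (u : OctL O a1 b1 c1 ≃ₗ[O] OctL O a b c) {f s t : O}
    (hbil : ∀ x y, bil (u x) (u y) = f * bil x y)
    (hJ : ∀ x, Jq σ' (algebraMap E O α) (algebraMap L O q) (ρ' (algebraMap L O q)) (u x) =
      s • u (omap σ' x))
    (hT : ∀ x, omap τ' (u x) = t • u (Jq τ' (algebraMap E1 O α1) q1 (ρ' q1) x)) :
    ∃ qL : Lˣ, algebraMap L O (qL : L) = q1 ∧ Hy ρ1 σ1 ρL α1 a1 b1 c1 qL := by
  obtain ⟨r, hr⟩ := T.exists_L H hσq1 hτq1
  have hρO : ∀ x : L, ρ' (algebraMap L O x) = algebraMap L O (ρL x) := fun x => by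
    rw [IsScalarTower.algebraMap_apply L E O, T.ρE, H.ρL', ← IsScalarTower.algebraMap_apply]
  have hr0 : r ≠ 0 := by
    rintro rfl
    rw [map_zero] at hr
    rw [← hr, H67.N3, zero_mul, zero_mul] at hN
    exact zero_ne_one hN
  have hNL : r * ρL r * ρL (ρL r) = 1 := by
    apply (algebraMap L O).injective
    rw [map_mul, map_mul, ← hρO, ← hρO, ← hρO, hr, map_one]
    exact hN
  have h3L : ∀ x : L, ρL (ρL (ρL x)) = x := E6I.rho3 H.h3 H.ρ1
  have hα0 : algebraMap E O α ≠ 0 := (map_ne_zero _).mpr H.α0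
  have hα2 : algebraMap E O α * algebraMap E O α = algebraMap k O a := by
    rw [← map_mul, H.α2, ← IsScalarTower.algebraMap_apply]
  have hσα : σ' (algebraMap E O α) = -algebraMap E O α := by rw [T.σE, H.σα, map_neg]
  have hτα : τ' (algebraMap E O α) = algebraMap E O α := T.τE α
  have hβ2 : algebraMap E1 O α1 * algebraMap E1 O α1 = algebraMap k O a1 := by
    rw [← map_mul, T.α12, ← IsScalarTower.algebraMap_apply]
  have hβ0 : algebraMap E1 O α1 ≠ 0 := by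
    intro h0
    rw [h0, mul_zero] at hβ2
    exact (map_ne_zero (algebraMap k O)).mpr a1.ne_zero hβ2.symm
  have hσβ : σ' (algebraMap E1 O α1) = algebraMap E1 O α1 := T.σE1 α1
  have hτβ : τ' (algebraMap E1 O α1) = -algebraMap E1 O α1 := by rw [T.τE1, T.σα1, map_neg]
  have hσq1' : σ' (ρ' q1) = ρ' q1 := by rw [T.σρ, hσq1]
  -- the signs
  have key : ∀ w : L →+* ℝ, w (algebraMap k L a1) < 0 → 0 < w (ρL r) ∧
      w (algebraMap k L b1) * (w r * w (ρL r)) < 0 ∧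
      w (algebraMap k L c1) * (w r * w (ρL r)) < 0 := by
    intro w hw1
    have hwa : w (algebraMap k L a) < 0 := hDs (w.comp (algebraMap k L)) hw1
    obtain ⟨hwb, hwc, hwq⟩ := H.hre w hwa
    have hwq' : 0 < w (ρL q) := by
      have := H.hre (w.comp (ρL : L →+* L)) (by
        change w (ρL (algebraMap k L a)) < 0
        rw [AlgEquiv.commutes]
        exact hwa)
      exact this.2.2
    obtain ⟨W, hWL, hWc⟩ := exists_W H T hwa hw1
    have hWk : ∀ t : k, W (algebraMap k O t) = ((w (algebraMap k L t) : ℝ) : ℂ) := fun t => by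
      rw [IsScalarTower.algebraMap_apply k L O, hWL]
    exact real_core hα0 hα2 hσα hτα hβ0 hβ2 hσβ hτβ hσq1 hσq1' u hbil hJ hT W hWc
      (hWL q) (by rw [hρO, hWL]) (hWk b) (hWk c) hwq hwq' hwb hwc
      (by rw [← hr, hWL]) (by rw [← hr, hρO, hWL]) (hWk b1) (hWk c1)
  have signs : ∀ w : L →+* ℝ, w (algebraMap k L a1) < 0 →
      w (algebraMap k L b1) < 0 ∧ w (algebraMap k L c1) < 0 ∧ 0 < w r := by
    intro w hw1
    obtain ⟨k1, k2, k3⟩ := key w hw1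
    have k4 : 0 < w r := by
      have h := (key (w.comp ((ρL : L →+* L).comp (ρL : L →+* L))) (by
        change w (ρL (ρL (algebraMap k L a1))) < 0
        rw [AlgEquiv.commutes, AlgEquiv.commutes]
        exact hw1)).1
      change 0 < w (ρL (ρL (ρL r))) at h
      rwa [h3L] at h
    have k5 : 0 < w r * w (ρL r) := mul_pos k4 k1
    refine ⟨?_, ?_, k4⟩
    · by_contra hcon
      exact absurd k2 (not_lt.mpr (mul_nonneg (not_lt.mp hcon) k5.le))
    · by_contra hcon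
      exact absurd k3 (not_lt.mpr (mul_nonneg (not_lt.mp hcon) k5.le))
  -- the new algebra is a division algebra
  have hdiv1 : Division a1 b1 c1 := by
    obtain ⟨τ, ha, hb, hc⟩ := exists_dfn H.hdiv
    have h1 : τ (a1 : k) < 0 := by
      obtain ⟨w, hw0, hw⟩ := hDw
      have e := congrArg QuaternionAlgebra.re hw
      simp only [QuaternionAlgebra.re_mul, hw0, QuaternionAlgebra.re_smul,
        QuaternionAlgebra.re_one, smul_eq_mul, mul_one] at e
      have e' := congrArg τ e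
      simp only [map_add, map_sub, map_mul, map_zero] at e'
      have hne : τ (a1 : k) ≠ 0 := (map_ne_zero τ).mpr a1.ne_zero
      refine lt_of_le_of_ne ?_ hne
      have t1 : 0 ≤ (-τ a) * (τ w.imI * τ w.imI) :=
        mul_nonneg (neg_pos.2 ha).le (mul_self_nonneg _)
      have t2 : 0 ≤ (-τ b) * (τ w.imJ * τ w.imJ) :=
        mul_nonneg (neg_pos.2 hb).le (mul_self_nonneg _)
      have t3 : 0 ≤ (-τ a) * (-τ b) * (τ w.imK * τ w.imK) :=
        mul_nonneg (mul_pos (neg_pos.2 ha) (neg_pos.2 hb)).le (mul_self_nonneg _)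
      linarith
    obtain ⟨w, rfl⟩ := E6I.exists_real_over (L := L) H.h3 τ
    obtain ⟨s1, s2, -⟩ := signs w h1
    exact division_of_neg (w.comp (algebraMap k L)) h1 s1 s2
  exact ⟨Units.mk0 r hr0, hr,
    { h3 := H.h3
      h2 := T.h2
      ρ1 := H.ρ1
      ρ3 := T.ρ13
      ρL' := T.ρ1L
      σL := T.σ1L
      σ2 := T.σ12
      comm := T.comm1
      α2 := T.α12
      ρα := T.ρα1
      σα := T.σα1
      hq := hNL
      hdiv := hdiv1
      hre := signs }⟩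

end main


end Vale.Agent.P011.D4T
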