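import Vale.Agent.P011.D4T.H64.Near

/-!
Coordinates of an element of a cyclic cubic field in the basis `1, y, y ^ 2`, and their
dependence on the element.
-/

open NumberField IsDedekindDomain Topology Filter

namespace Vale.Agent.P011.D4T

open Vale.Agent.P011.Arith Vale.Agent.P011.D4

section interp

variable {L : Type} [Field L]

/-- The leading coefficient of the interpolation polynomial. -/
def iA (y0 y1 y2 z0 z1 z2 : L) : L :=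
  z0 / ((y0 - y1) * (y0 - y2)) + z1 / ((y1 - y2) * (y1 - y0)) + z2 / ((y2 - y0) * (y2 - y1))

/-- The middle coefficient of the interpolation polynomial. -/
def iB (y0 y1 y2 z0 z1 z2 : L) : L :=
  -(z0 * (y1 + y2) / ((y0 - y1) * (y0 - y2)) + z1 * (y2 + y0) / ((y1 - y2) * (y1 - y0)) +
    z2 * (y0 + y1) / ((y2 - y0) * (y2 - y1)))

/-- The constant coefficient of the interpolation polynomial. -/
def iC (y0 y1 y2 z0 z1 z2 : L) : L :=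
  z0 * (y1 * y2) / ((y0 - y1) * (y0 - y2)) + z1 * (y2 * y0) / ((y1 - y2) * (y1 - y0)) +
    z2 * (y0 * y1) / ((y2 - y0) * (y2 - y1))

theorem iA_cyc (y0 y1 y2 z0 z1 z2 : L) : iA y1 y2 y0 z1 z2 z0 = iA y0 y1 y2 z0 z1 z2 := by
  simp only [iA]
  ring

theorem iB_cyc (y0 y1 y2 z0 z1 z2 : L) : iB y1 y2 y0 z1 z2 z0 = iB y0 y1 y2 z0 z1 z2 := by
  simp only [iB]
  ring

theorem iC_cyc (y0 y1 y2 z0 z1 z2 : L) : iC y1 y2 y0 z1 z2 z0 = iC y0 y1 y2 z0 z1 z2 := by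
  simp only [iC]
  ring

theorem interp {y0 y1 y2 : L} (h01 : y0 ≠ y1) (h12 : y1 ≠ y2) (h20 : y2 ≠ y0) (z0 z1 z2 : L) :
    iA y0 y1 y2 z0 z1 z2 * y0 ^ 2 + iB y0 y1 y2 z0 z1 z2 * y0 + iC y0 y1 y2 z0 z1 z2 = z0 := by
  have e01 : y0 - y1 ≠ 0 := sub_ne_zero.mpr h01
  have e12 : y1 - y2 ≠ 0 := sub_ne_zero.mpr h12
  have e20 : y2 - y0 ≠ 0 := sub_ne_zero.mpr h20
  have e10 : y1 - y0 = -(y0 - y1) := by ring
  have e21 : y2 - y1 = -(y1 - y2) := by ring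
  have e02 : y0 - y2 = -(y2 - y0) := by ring
  simp only [iA, iB, iC, e10, e21, e02]
  field_simp
  ring

theorem iA_val {y0 y1 y2 : L} (h01 : y0 ≠ y1) (h12 : y1 ≠ y2) (h20 : y2 ≠ y0) (a : L) :
    iA y0 y1 y2 (y0 ^ 2 - a) (y1 ^ 2 - a) (y2 ^ 2 - a) = 1 := by
  have e01 : y0 - y1 ≠ 0 := sub_ne_zero.mpr h01
  have e12 : y1 - y2 ≠ 0 := sub_ne_zero.mpr h12
  have e20 : y2 - y0 ≠ 0 := sub_ne_zero.mpr h20
  have e10 : y1 - y0 = -(y0 - y1) := by ring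
  have e21 : y2 - y1 = -(y1 - y2) := by ring
  have e02 : y0 - y2 = -(y2 - y0) := by ring
  simp only [iA, e10, e21, e02]
  field_simp
  ring

theorem iB_val {y0 y1 y2 : L} (h01 : y0 ≠ y1) (h12 : y1 ≠ y2) (h20 : y2 ≠ y0) (a : L) :
    iB y0 y1 y2 (y0 ^ 2 - a) (y1 ^ 2 - a) (y2 ^ 2 - a) = 0 := by
  have e01 : y0 - y1 ≠ 0 := sub_ne_zero.mpr h01
  have e12 : y1 - y2 ≠ 0 := sub_ne_zero.mpr h12
  have e20 : y2 - y0 ≠ 0 := sub_ne_zero.mpr h20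
  have e10 : y1 - y0 = -(y0 - y1) := by ring
  have e21 : y2 - y1 = -(y1 - y2) := by ring
  have e02 : y0 - y2 = -(y2 - y0) := by ring
  simp only [iB, e10, e21, e02]
  field_simp
  ring

theorem iC_val {y0 y1 y2 : L} (h01 : y0 ≠ y1) (h12 : y1 ≠ y2) (h20 : y2 ≠ y0) (a : L) :
    iC y0 y1 y2 (y0 ^ 2 - a) (y1 ^ 2 - a) (y2 ^ 2 - a) = -a := by
  have e01 : y0 - y1 ≠ 0 := sub_ne_zero.mpr h01
  have e12 : y1 - y2 ≠ 0 := sub_ne_zero.mpr h12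
  have e20 : y2 - y0 ≠ 0 := sub_ne_zero.mpr h20
  have e10 : y1 - y0 = -(y0 - y1) := by ring
  have e21 : y2 - y1 = -(y1 - y2) := by ring
  have e02 : y0 - y2 = -(y2 - y0) := by ring
  simp only [iC, e10, e21, e02]
  field_simp
  ring

/-- The discriminant of the interpolation polynomial. -/
def iD (y0 y1 y2 z0 z1 z2 : L) : L :=
  iB y0 y1 y2 z0 z1 z2 ^ 2 - 4 * iA y0 y1 y2 z0 z1 z2 * iC y0 y1 y2 z0 z1 z2

theorem iD_val {y0 y1 y2 : L} (h01 : y0 ≠ y1) (h12 : y1 ≠ y2) (h20 : y2 ≠ y0) (a : L) :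
    iD y0 y1 y2 (y0 ^ 2 - a) (y1 ^ 2 - a) (y2 ^ 2 - a) = 4 * a := by
  rw [iD, iA_val h01 h12 h20, iB_val h01 h12 h20, iC_val h01 h12 h20]
  ring

/-- The discriminant is continuous. -/
theorem iD_near (A : AbsoluteValue L ℝ) (y0 y1 y2 : L) (x0 : Fin 3 → L) {ε : ℝ} (hε : 0 < ε) :
    ∃ δ : ℝ, 0 < δ ∧ ∀ x : Fin 3 → L, (∀ i, A (x i - x0 i) < δ) →
      A (iD y0 y1 y2 (x 0) (x 1) (x 2) - iD y0 y1 y2 (x0 0) (x0 1) (x0 2)) < ε := by
  refine exists_delta A (fun x : Fin 3 → L => iD y0 y1 y2 (x 0) (x 1) (x 2)) ?_ x0 hε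
  let _ := topA A
  have := topA_ring A
  simp only [iD, iA, iB, iC, div_eq_mul_inv]
  fun_prop

end interp

section cub

variable {k L : Type} [Field k] [NumberField k] [Field L] [NumberField L] [Algebra k L]
  {ρ : L ≃ₐ[k] L}

/-- If `c` is near `y ^ 2 - a`, the discriminant of its quadratic polynomial in `y` is near
`4 a`. -/
theorem exists_iD_delta (S : Set (HeightOneSpectrum (𝓞 k))) (y : L) (a : k)
    (p : Pl L) (hp : p ∈ SP (ov L S)) {ε : ℝ} (hε : 0 < ε) : ∃ δ : ℝ, 0 < δ ∧ ∀ c : L,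
      (∀ q ∈ SP (ov L S), plAbv q (c - (y ^ 2 - algebraMap k L a)) < δ) →
      plAbv p (iD y (ρ y) (ρ (ρ y)) c (ρ c) (ρ (ρ c)) -
        iD y (ρ y) (ρ (ρ y)) (y ^ 2 - algebraMap k L a) (ρ y ^ 2 - algebraMap k L a)
          (ρ (ρ y) ^ 2 - algebraMap k L a)) < ε := by
  obtain ⟨δ0, hδ0, h0⟩ := iD_near (plAbv p) y (ρ y) (ρ (ρ y))
    ![y ^ 2 - algebraMap k L a, ρ y ^ 2 - algebraMap k L a, ρ (ρ y) ^ 2 - algebraMap k L a] hε
  obtain ⟨q1, hq1, h1⟩ := exists_cj ρ S p hp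
  obtain ⟨δ1, hδ1, h1'⟩ := h1 δ0 hδ0
  obtain ⟨q2, hq2, h2⟩ := exists_cj ρ S q1 hq1
  obtain ⟨δ2, hδ2, h2'⟩ := h2 δ1 hδ1
  refine ⟨min δ0 (min δ1 δ2), lt_min hδ0 (lt_min hδ1 hδ2), fun c hc => ?_⟩
  have e1 : ρ c - (ρ y ^ 2 - algebraMap k L a) = ρ (c - (y ^ 2 - algebraMap k L a)) := by
    rw [map_sub, map_sub, map_pow, ρ.commutes]
  have e2 : ρ (ρ c) - (ρ (ρ y) ^ 2 - algebraMap k L a) =
      ρ (ρ (c - (y ^ 2 - algebraMap k L a))) := by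
    rw [← e1, map_sub, map_sub, map_pow, ρ.commutes]
  have h3 := h0 ![c, ρ c, ρ (ρ c)] (by
    intro i
    fin_cases i
    · exact (hc p hp).trans_le (min_le_left _ _)
    · change plAbv p (ρ c - (ρ y ^ 2 - algebraMap k L a)) < δ0
      rw [e1]
      exact h1' _ ((hc q1 hq1).trans_le ((min_le_right _ _).trans (min_le_left _ _)))
    · change plAbv p (ρ (ρ c) - (ρ (ρ y) ^ 2 - algebraMap k L a)) < δ0
      rw [e2]
      exact h1' _ (h2' _ ((hc q2 hq2).trans_le ((min_le_right _ _).trans (min_le_right _ _)))))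
  exact h3

end cub

end Vale.Agent.P011.D4T
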