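import Vale.Agent.P011.Arith.Schilling
import Vale.Agent.P011.Even.Pattern

/-!
Local square classes and local norm groups of two quadratic extensions; local squares in a cyclic
cubic extension.
-/

open NumberField IsDedekindDomain

namespace Vale.Agent.P011.D4T

open Vale.Agent.P011.Arith

section loc

variable {F : Type} [Field F] [NumberField F]

/-- There is a unit which is not a local square. -/
theorem exists_unit_class (v : HeightOneSpectrum (𝓞 F)) :
    ∃ u : Fˣ, v.valuation F (u : F) = 1 ∧ u ∉ LS (v.valuation F) := by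
  obtain ⟨c, hc⟩ := exists_admC v
  have h2 : (2 : F) ≠ 0 := two_ne_zero
  have hwu : v.valuation F (1 + 4 * c) = 1 := by
    have h := hc.norm_eq h2 0 1
    have e : (0 : F) ^ 2 - (1 + 4 * c) * 1 ^ 2 = -(1 + 4 * c) := by ring
    rw [e, Valuation.map_neg] at h
    rw [h, zero_sub, Valuation.map_neg, map_one, mul_one, max_eq_left (val_two_le _), one_pow]
  have hu0 : (1 + 4 * c : F) ≠ 0 := by
    intro h
    rw [h, map_zero] at hwu
    exact zero_ne_one hwu
  refine ⟨Units.mk0 _ hu0, hwu, ?_⟩
  rintro ⟨y, hy⟩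
  rw [Units.val_mk0] at hy
  have hy0 : (y : F) ≠ 0 := y.ne_zero
  have hwy0 : v.valuation F (y : F) ≠ 0 := (Valuation.ne_zero_iff _).mpr hy0
  have h1 := (v.valuation F).map_one_add_of_lt (x := (1 + 4 * c) / (y : F) ^ 2 - 1)
    (lt_of_lt_of_le hy (val_four_le _))
  rw [add_sub_cancel, map_div₀, hwu, map_pow] at h1
  have hwy : v.valuation F (y : F) = 1 := by
    rw [div_eq_one_iff_eq (pow_ne_zero 2 hwy0)] at h1
    exact (pow_eq_one_iff_of_nonneg zero_le two_ne_zero).mp h1.symm
  have h3 := hc.norm_eq h2 (y : F) 1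
  have e2 : (1 + 4 * c) / (y : F) ^ 2 - 1 = -(((y : F) ^ 2 - (1 + 4 * c) * 1 ^ 2) / (y : F) ^ 2) := by
    field_simp
    ring
  rw [e2, Valuation.map_neg, map_div₀, h3, map_pow, hwy, one_pow, div_one] at hy
  have h4 : v.valuation F (2 * 1 : F) ^ 2 ≤ max (v.valuation F ((y : F) - 1))
      (v.valuation F (2 * 1)) ^ 2 := pow_le_pow_left' (le_max_right _ _) 2
  rw [val_four_eq, mul_one] at hy
  rw [mul_one] at h4
  exact absurd (lt_of_le_of_lt h4 hy) (lt_irrefl _)

/-- There are at least three nontrivial local square classes. -/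
theorem exists_class (v : HeightOneSpectrum (𝓞 F)) (a : Fˣ) :
    ∃ g : Fˣ, g ∉ LS (v.valuation F) ∧ g * a ∉ LS (v.valuation F) := by
  obtain ⟨u, hu, huL⟩ := exists_unit_class v
  by_cases h : u * a ∈ LS (v.valuation F)
  · obtain ⟨π, hπ⟩ := exists_exp v
    have hπ0 : π ≠ 0 := by
      rintro rfl
      rw [map_zero] at hπ
      exact WithZero.exp_ne_zero hπ.symm
    refine ⟨Units.mk0 π hπ0, Sch.not_mem_LS_of_odd v _ hπ, fun h1 => ?_⟩
    have h2 : Units.mk0 π hπ0 * u ∈ LS (v.valuation F) := by
      have h3 := mul_mem h1 (inv_mem h)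
      have h4 := mul_mem h3 (sq_mem_LS (w := v.valuation F) u)
      have e : Units.mk0 π hπ0 * a * (u * a)⁻¹ * u ^ 2 = Units.mk0 π hπ0 * u := by
        rw [mul_inv_rev, ← mul_assoc, mul_inv_cancel_right, pow_two, ← mul_assoc,
          inv_mul_cancel_right]
      rwa [e] at h4
    refine Sch.not_mem_LS_of_odd v _ ?_ h2
    rw [Units.val_mul, Units.val_mk0, map_mul, hπ, hu, mul_one]
  · exact ⟨u, huL, h⟩

/-- The norm groups of two different quadratic extensions generate everything. -/
theorem NF_sup_NF (v : HeightOneSpectrum (𝓞 F)) {a b : Fˣ} (ha : a ∉ LS (v.valuation F))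
    (hb : b ∉ LS (v.valuation F)) (hab : a * b ∉ LS (v.valuation F)) :
    NF a ⊔ NF b ⊔ LS (v.valuation F) = ⊤ := by
  obtain ⟨π, hπ⟩ := exists_exp v
  have ia := local_index_two v a ha
  have ib := local_index_two v b hb
  have e1 : NF a ⊔ NF b ⊔ LS (v.valuation F) =
      (NF a ⊔ LS (v.valuation F)) ⊔ (NF b ⊔ LS (v.valuation F)) := by
    apply le_antisymm
    · refine sup_le (sup_le ?_ ?_) ?_
      · exact le_sup_left.trans le_sup_left
      · exact le_sup_left.trans le_sup_right
      · exact le_sup_right.trans le_sup_left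
    · refine sup_le (sup_le ?_ le_sup_right) (sup_le ?_ le_sup_right)
      · exact le_sup_left.trans le_sup_left
      · exact le_sup_right.trans le_sup_left
  by_contra hne
  have hle : NF b ⊔ LS (v.valuation F) ≤ NF a ⊔ LS (v.valuation F) := by
    intro t ht
    by_contra hta
    apply hne
    rw [e1, eq_top_iff]
    intro s _
    by_cases hs : s ∈ NF a ⊔ LS (v.valuation F)
    · exact Subgroup.mem_sup_left hs
    · have h1 : s * t ∈ NF a ⊔ LS (v.valuation F) := by
        rw [Subgroup.mul_mem_iff_of_index_two ia]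
        exact ⟨fun h => absurd h hs, fun h => absurd h hta⟩
      have h2 := Subgroup.mul_mem_sup h1 (inv_mem ht)
      rwa [mul_inv_cancel_right] at h2
  have heq : NF b ⊔ LS (v.valuation F) = NF a ⊔ LS (v.valuation F) := by
    have h1 := Subgroup.relIndex_mul_index hle
    rw [ia, ib] at h1
    have h2 : (NF b ⊔ LS (v.valuation F)).relIndex (NF a ⊔ LS (v.valuation F)) = 1 := by omega
    exact le_antisymm hle (Subgroup.relIndex_eq_one.mp h2)
  have hall : ∀ t : Fˣ, a * b ∈ NF t ⊔ LS (v.valuation F) := by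
    intro t
    have hiff : a ∈ NF t ⊔ LS (v.valuation F) ↔ b ∈ NF t ⊔ LS (v.valuation F) := by
      constructor
      · intro h
        have h1 := mem_symm t a h
        rw [← heq] at h1
        exact mem_symm b t h1
      · intro h
        have h1 := mem_symm t b h
        rw [heq] at h1
        exact mem_symm a t h1
    by_cases ht : t ∈ LS (v.valuation F)
    · rw [NF_sup_of_mem ⟨π, hπ⟩ t ht]
      exact Subgroup.mem_top _
    · rw [Subgroup.mul_mem_iff_of_index_two (local_index_two v t ht)]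
      exact hiff
  have htop : NF (a * b) ⊔ LS (v.valuation F) = ⊤ := by
    rw [eq_top_iff]
    intro t _
    exact mem_symm t (a * b) (hall t)
  have h1 := local_index_two v (a * b) hab
  rw [htop, Subgroup.index_top] at h1
  norm_num at h1

end loc

section near

variable {F : Type} [Field F]

theorem near_one_mul {w : Valuation F Z0} {x y : F} (hx : w (x - 1) < w 4)
    (hy : w (y - 1) < w 4) : w (x * y - 1) < w 4 := by
  have e : x * y - 1 = (x - 1) + (y - 1) + (x - 1) * (y - 1) := by ring
  rw [e]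
  refine w.map_add_lt (w.map_add_lt hx hy) ?_
  rw [map_mul]
  calc _ ≤ w (x - 1) * 1 := mul_le_mul_right (le_trans hy.le (val_four_le w)) _
    _ < w 4 := by rwa [mul_one]

theorem near_one_inv {w : Valuation F Z0} {x : F} (hx : w (x - 1) < w 4) :
    w (x⁻¹ - 1) < w 4 := by
  have h1 : w x = 1 := by
    have := w.map_one_add_of_lt (x := x - 1) (lt_of_lt_of_le hx (val_four_le _))
    rwa [add_sub_cancel] at this
  have hx0 : x ≠ 0 := by
    rintro rfl
    rw [map_zero] at h1
    exact zero_ne_one h1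
  have e : x⁻¹ - 1 = -((x - 1) / x) := by
    field_simp
    ring
  rw [e, Valuation.map_neg, map_div₀, h1, div_one]
  exact hx

end near

section cub

variable {k L : Type} [Field k] [NumberField k] [Field L] [NumberField L] [Algebra k L]
  {ρ : L ≃ₐ[k] L}

/-- In a cyclic cubic extension the nonsquares of the base stay local nonsquares. -/
theorem LS_of_map (h3 : ∀ x, ρ (ρ (ρ x)) = x)
    (hfix : ∀ x, ρ x = x → ∃ t : k, algebraMap k L t = x) {w : HeightOneSpectrum (𝓞 L)}
    {v : HeightOneSpectrum (𝓞 k)}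
    (hw : w.asIdeal.comap (algebraMap (𝓞 k) (𝓞 L)) = v.asIdeal) {x : kˣ}
    (hx : Units.map (algebraMap k L : k →* L) x ∈ LS (w.valuation L)) :
    x ∈ LS (v.valuation k) := by
  obtain ⟨y, hy⟩ := hx
  have hy' : w.valuation L (algebraMap k L x / (y : L) ^ 2 - 1) < w.valuation L 4 := hy
  obtain ⟨w1, hw1, -⟩ := exists_conj (F := k) ρ w
  obtain ⟨w2, hw2, -⟩ := exists_conj (F := k) ρ w1
  have hxρ : ∀ s : k, ρ (algebraMap k L s) = algebraMap k L s := fun s => ρ.commutes s
  have h4 : ∀ z : L, w1.valuation L (ρ z) < w1.valuation L 4 ↔ w.valuation L z < w.valuation L 4 :=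
    fun z => by
      have e4 : (4 : L) = ρ 4 := (map_ofNat ρ 4).symm
      conv_lhs => rw [e4]
      rw [hw1, hw1]
  have h4' : ∀ z : L, w2.valuation L (ρ z) < w2.valuation L 4 ↔
      w1.valuation L z < w1.valuation L 4 :=
    fun z => by
      have e4 : (4 : L) = ρ 4 := (map_ofNat ρ 4).symm
      conv_lhs => rw [e4]
      rw [hw2, hw2]
  have hy1 : w1.valuation L (algebraMap k L x / (ρ y : L) ^ 2 - 1) < w1.valuation L 4 := by
    have e : algebraMap k L x / (ρ y : L) ^ 2 - 1 = ρ (algebraMap k L x / (y : L) ^ 2 - 1) := by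
      rw [map_sub, map_div₀, map_pow, hxρ, map_one]
    rw [e, h4]
    exact hy'
  have hy2 : w2.valuation L (algebraMap k L x / (ρ (ρ y) : L) ^ 2 - 1) < w2.valuation L 4 := by
    have e : algebraMap k L x / (ρ (ρ y) : L) ^ 2 - 1 =
        ρ (algebraMap k L x / (ρ y : L) ^ 2 - 1) := by
      rw [map_sub, map_div₀, map_pow, hxρ, map_one]
    rw [e, h4']
    exact hy1
  -- one element for the three places
  classical
  obtain ⟨Y, hY0, hY⟩ : ∃ Y : L, Y ≠ 0 ∧ ∀ p : HeightOneSpectrum (𝓞 L), p = w ∨ p = w1 ∨ p = w2 →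
      p.valuation L (algebraMap k L x / Y ^ 2 - 1) < p.valuation L 4 := by
    let z : HeightOneSpectrum (𝓞 L) → L := fun p =>
      if p = w then y else if p = w1 then ρ y else ρ (ρ y)
    have hz0 : ∀ p, z p ≠ 0 := by
      intro p
      have hy0 : (y : L) ≠ 0 := y.ne_zero
      have hy10 : ρ (y : L) ≠ 0 := (map_ne_zero ρ).mpr hy0
      have hy20 : ρ (ρ (y : L)) ≠ 0 := (map_ne_zero ρ).mpr hy10
      by_cases h1 : p = w
      · simp only [z, if_pos h1]
        exact hy0
      · by_cases h2 : p = w1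
        · simp only [z, if_neg h1, if_pos h2]
          exact hy10
        · simp only [z, if_neg h1, if_neg h2]
          exact hy20
    have hz : ∀ p : HeightOneSpectrum (𝓞 L), p = w ∨ p = w1 ∨ p = w2 →
        p.valuation L (algebraMap k L x / z p ^ 2 - 1) < p.valuation L 4 := by
      intro p hp
      by_cases h1 : p = w
      · simp only [z, if_pos h1]
        rw [h1]
        exact hy'
      · by_cases h2 : p = w1
        · simp only [z, if_neg h1, if_pos h2]
          rw [h2]
          exact hy1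
        · simp only [z, if_neg h1, if_neg h2]
          rcases hp with h | h | h
          · exact absurd h h1
          · exact absurd h h2
          · rw [h]
            exact hy2
    obtain ⟨Y, hY⟩ := approx (F := L) ((Sum.inl '' ({w, w1, w2} : Set (HeightOneSpectrum (𝓞 L)))))
      ((Set.toFinite _).image _) (Sum.elim z fun _ => 0)
      (Sum.elim (fun p => plAbv (Sum.inl p) (4 * z p)) fun _ => 1) (by
        rintro (p | φ)
        · exact (plAbv (Sum.inl p)).pos (mul_ne_zero (by norm_num) (hz0 p))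
        · exact one_pos)
    have hY' : ∀ p : HeightOneSpectrum (𝓞 L), p = w ∨ p = w1 ∨ p = w2 →
        p.valuation L (Y / z p - 1) < p.valuation L 4 := by
      intro p hp
      have h1 := hY (Sum.inl p) ⟨p, by simpa using hp, rfl⟩
      simp only [Sum.elim_inl] at h1
      rw [plAbv_lt, map_mul] at h1
      have e : Y / z p - 1 = (Y - z p) / z p := by
        have := hz0 p
        field_simp
      rw [e, map_div₀, div_lt_iff₀ (zero_lt_iff.mpr ((Valuation.ne_zero_iff _).mpr (hz0 p)))]
      exact h1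
    refine ⟨Y, ?_, fun p hp => ?_⟩
    · rintro rfl
      have h1 := hY' w (Or.inl rfl)
      rw [zero_div, zero_sub, Valuation.map_neg, map_one] at h1
      exact absurd (val_four_le (w.valuation L)) (not_le.mpr h1)
    · have h1 := near_one_inv (hY' p hp)
      have h2 := near_one_mul (hz p hp) (near_one_mul h1 h1)
      have e : algebraMap k L x / z p ^ 2 * ((Y / z p)⁻¹ * (Y / z p)⁻¹) =
          algebraMap k L x / Y ^ 2 := by
        have := hz0 p
        by_cases hY0 : Y = 0
        · simp [hY0]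
        · field_simp
      rwa [e] at h2
  -- the norm
  obtain ⟨n, hn⟩ := hfix (Y * ρ Y * ρ (ρ Y)) (by
    rw [map_mul, map_mul, h3]
    ring)
  have hρY : ρ Y ≠ 0 := (map_ne_zero ρ).mpr hY0
  have hρρY : ρ (ρ Y) ≠ 0 := (map_ne_zero ρ).mpr hρY
  have hn0 : n ≠ 0 := by
    rintro rfl
    rw [map_zero] at hn
    exact mul_ne_zero (mul_ne_zero hY0 hρY) hρρY hn.symm
  have k0 := hY w (Or.inl rfl)
  have k1 := hY w1 (Or.inr (Or.inl rfl))
  have k2 := hY w2 (Or.inr (Or.inr rfl))
  have k1' : w.valuation L (algebraMap k L x / (ρ (ρ Y)) ^ 2 - 1) < w.valuation L 4 := by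
    rw [← h4]
    have e : ρ (algebraMap k L x / (ρ (ρ Y)) ^ 2 - 1) = algebraMap k L x / Y ^ 2 - 1 := by
      rw [map_sub, map_div₀, map_pow, hxρ, map_one, h3]
    rw [e]
    exact k1
  have k2' : w.valuation L (algebraMap k L x / (ρ Y) ^ 2 - 1) < w.valuation L 4 := by
    rw [← h4, ← h4']
    have e : ρ (ρ (algebraMap k L x / (ρ Y) ^ 2 - 1)) = algebraMap k L x / Y ^ 2 - 1 := by
      rw [map_sub, map_div₀, map_pow, hxρ, map_one, map_sub, map_div₀, map_pow, hxρ, map_one, h3]
    rw [e]
    exact k2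
  have k3 := near_one_mul (near_one_mul k0 k1') k2'
  have e3 : algebraMap k L x / Y ^ 2 * (algebraMap k L x / (ρ (ρ Y)) ^ 2) *
      (algebraMap k L x / (ρ Y) ^ 2) - 1 = algebraMap k L ((x : k) ^ 3 / n ^ 2 - 1) := by
    rw [map_sub, map_div₀, map_pow, map_pow, hn, map_one]
    field_simp
  have e4 : (4 : L) = algebraMap k L 4 := (map_ofNat _ 4).symm
  rw [e3, e4, val_lt_val_iff hw] at k3
  have hx3 : x ^ 3 ∈ LS (v.valuation k) := ⟨Units.mk0 n hn0, by simpa using k3⟩
  have h5 := mul_mem hx3 (inv_mem (sq_mem_LS (w := v.valuation k) x))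
  have e5 : x ^ 3 * (x ^ 2)⁻¹ = x := by
    rw [pow_succ x 2, mul_comm (x ^ 2) x, mul_inv_cancel_right]
  rwa [e5] at h5

end cub

end Vale.Agent.P011.D4T
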