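import Vale.Agent.P011.D4T.H62.Aniso
import Vale.Agent.P011.E6I.Gal

/-!
The tower of fields for the change of the quadratic field.
-/

open NumberField

namespace Vale.Agent.P011.D4T

open Vale.Agent.P011.MPQ Vale.Agent.P011.D4 Vale.Agent.P011.D4.Oct Vale.Agent.P011.E6

/-- The fields `E₁ = L(√D)` and `O = E(√D)` with their automorphisms. -/
structure Tow {k L E : Type} [Field k] [Field L] [Field E] [Algebra k L] [Algebra k E]
    [Algebra L E] (ρ σ : E ≃ₐ[k] E) (ρL : L ≃ₐ[k] L) (D : k)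
    {E1 O : Type} [Field E1] [Field O] [Algebra k E1] [Algebra L E1] [Algebra k O] [Algebra E O]
    [Algebra E1 O] (ρ1 σ1 : E1 ≃ₐ[k] E1) (α1 : E1) (ρ' σ' τ' : O ≃ₐ[k] O) : Prop where
  h2 : Module.finrank L E1 = 2
  ρ13 : ∀ x, ρ1 (ρ1 (ρ1 x)) = x
  ρ1L : ∀ t : L, ρ1 (algebraMap L E1 t) = algebraMap L E1 (ρL t)
  σ1L : ∀ t : L, σ1 (algebraMap L E1 t) = algebraMap L E1 t
  σ12 : ∀ x, σ1 (σ1 x) = x
  comm1 : ∀ x, σ1 (ρ1 x) = ρ1 (σ1 x)
  α12 : α1 * α1 = algebraMap k E1 D
  ρα1 : ρ1 α1 = α1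
  σα1 : σ1 α1 = -α1
  ρ3 : ∀ x, ρ' (ρ' (ρ' x)) = x
  σ2 : ∀ x, σ' (σ' x) = x
  τ2 : ∀ x, τ' (τ' x) = x
  σρ : ∀ x, σ' (ρ' x) = ρ' (σ' x)
  τρ : ∀ x, τ' (ρ' x) = ρ' (τ' x)
  στ : ∀ x, σ' (τ' x) = τ' (σ' x)
  ρE : ∀ x : E, ρ' (algebraMap E O x) = algebraMap E O (ρ x)
  σE : ∀ x : E, σ' (algebraMap E O x) = algebraMap E O (σ x)
  τE : ∀ x : E, τ' (algebraMap E O x) = algebraMap E O x
  ρE1 : ∀ x : E1, ρ' (algebraMap E1 O x) = algebraMap E1 O (ρ1 x)
  σE1 : ∀ x : E1, σ' (algebraMap E1 O x) = algebraMap E1 O x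
  τE1 : ∀ x : E1, τ' (algebraMap E1 O x) = algebraMap E1 O (σ1 x)
  fixτ : ∀ x : O, τ' x = x → ∃ y : E, algebraMap E O y = x
  fixσ : ∀ x : O, σ' x = x → ∃ y : E1, algebraMap E1 O y = x

section quad

variable {k R S : Type} [Field k] [Field R] [Algebra k R] [Field S]

/-- The map of quadratic algebras given by a homomorphism. -/
def qaMap (f : R →+* S) {D : R} {D' : S} (h : f D = D') :
    QuadraticAlgebra R D 0 →+* QuadraticAlgebra S D' 0 where
  toFun x := ⟨f x.re, f x.im⟩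
  map_one' := QuadraticAlgebra.ext (map_one f) (map_zero f)
  map_mul' x y := by ext <;> simp [h]
  map_zero' := by ext <;> simp
  map_add' x y := by ext <;> simp

/-- The extension of an automorphism to a quadratic algebra. -/
def qaEquiv (f : R ≃ₐ[k] R) (D : k) :
    QuadraticAlgebra R (algebraMap k R D) 0 ≃ₐ[k] QuadraticAlgebra R (algebraMap k R D) 0 where
  toFun x := ⟨f x.re, f x.im⟩
  invFun x := ⟨f.symm x.re, f.symm x.im⟩
  left_inv x := by ext <;> simp
  right_inv x := by ext <;> simp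
  map_mul' x y := by ext <;> simp
  map_add' x y := by ext <;> simp
  commutes' r := by
    change (⟨f (algebraMap k R r), f 0⟩ : QuadraticAlgebra R (algebraMap k R D) 0) =
      ⟨algebraMap k R r, 0⟩
    rw [f.commutes, map_zero]

/-- The conjugation of a quadratic algebra. -/
def qaConj (k : Type) {R : Type} [Field k] [Field R] [Algebra k R] (D : k) :
    QuadraticAlgebra R (algebraMap k R D) 0 ≃ₐ[k] QuadraticAlgebra R (algebraMap k R D) 0 where
  toFun x := ⟨x.re, -x.im⟩
  invFun x := ⟨x.re, -x.im⟩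
  left_inv x := by ext <;> simp
  right_inv x := by ext <;> simp
  map_mul' x y := by
    ext
    · simp
    · simp [add_comm]
  map_add' x y := by ext <;> simp [add_comm]
  commutes' r := by
    change (⟨algebraMap k R r, -0⟩ : QuadraticAlgebra R (algebraMap k R D) 0) =
      ⟨algebraMap k R r, 0⟩
    rw [neg_zero]

end quad

section main

variable {k L E : Type} [Field k] [Field L] [Field E] [Algebra k L] [Algebra k E] [Algebra L E]
  [IsScalarTower k L E] [NeZero (2 : E)] {ρ σ : E ≃ₐ[k] E} {ρL : L ≃ₐ[k] L} {α : E}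
  {a b c : kˣ} {q : Lˣ} (H : Hy ρ σ ρL α a b c q)

include H in
theorem Hy.fix_σ {x : E} (hx : σ x = x) : ∃ t : L, algebraMap L E t = x := by
  obtain ⟨x0, x1, rfl⟩ := H.coord x
  rw [map_add, map_mul, H.σL, H.σL, H.σα] at hx
  refine ⟨x0, ?_⟩
  have h2 : (2 : E) ≠ 0 := NeZero.ne 2
  have h : (2 : E) * (algebraMap L E x1 * α) = 0 := by linear_combination -hx
  rcases mul_eq_zero.mp h with h | h
  · exact absurd h h2
  · rw [h, add_zero]

include H in
/-- The tower exists if `D` is not a square in `E`. -/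
theorem exists_tow [NumberField L] [NumberField E] {D : k}
    (hD : ∀ x : E, x * x ≠ algebraMap k E D) :
    ∃ (E1 O : Type) (_ : Field E1) (_ : Field O) (_ : Algebra k E1) (_ : Algebra L E1)
      (_ : Algebra k O) (_ : Algebra L O) (_ : Algebra E O) (_ : Algebra E1 O)
      (_ : IsScalarTower k L E1) (_ : IsScalarTower k E O) (_ : IsScalarTower k E1 O)
      (_ : IsScalarTower L E O) (_ : IsScalarTower L E1 O) (_ : IsScalarTower k L O)
      (_ : NumberField E1) (_ : NumberField O) (ρ1 σ1 : E1 ≃ₐ[k] E1) (α1 : E1)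
      (ρ' σ' τ' : O ≃ₐ[k] O), Tow ρ σ ρL D ρ1 σ1 α1 ρ' σ' τ' := by
  have hDL : ∀ x : L, x * x ≠ algebraMap k L D := by
    intro x hx
    apply hD (algebraMap L E x)
    rw [← map_mul, hx, ← IsScalarTower.algebraMap_apply]
  have hDD : algebraMap L E (algebraMap k L D) = algebraMap k E D :=
    (IsScalarTower.algebraMap_apply k L E D).symm
  have f1 : Fact (∀ r : L, r ^ 2 ≠ algebraMap k L D + 0 * r) := ⟨fun r h => hDL r (by
    linear_combination h)⟩
  have f2 : Fact (∀ r : E, r ^ 2 ≠ algebraMap k E D + 0 * r) := ⟨fun r h => hD r (by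
    linear_combination h)⟩
  let E1 := QuadraticAlgebra L (algebraMap k L D) 0
  let O := QuadraticAlgebra E (algebraMap k E D) 0
  let iE1O : Algebra E1 O := (qaMap (algebraMap L E) hDD).toAlgebra
  have hE1O : ∀ x : E1, algebraMap E1 O x = ⟨algebraMap L E x.re, algebraMap L E x.im⟩ :=
    fun _ => rfl
  have t1 : IsScalarTower k E1 O := IsScalarTower.of_algebraMap_eq fun r => by
    rw [hE1O]
    change (⟨algebraMap k E r, 0⟩ : O) = ⟨algebraMap L E (algebraMap k L r), algebraMap L E 0⟩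
    rw [← IsScalarTower.algebraMap_apply, map_zero]
  have t2 : IsScalarTower L E1 O := IsScalarTower.of_algebraMap_eq fun r => by
    rw [hE1O]
    change (⟨algebraMap L E r, 0⟩ : O) = ⟨algebraMap L E r, algebraMap L E 0⟩
    rw [map_zero]
  have n1 : NumberField E1 := NumberField.of_module_finite L E1
  have n2 : NumberField O := NumberField.of_module_finite E O
  refine ⟨E1, O, inferInstance, inferInstance, inferInstance, inferInstance, inferInstance,
    inferInstance, inferInstance, iE1O, inferInstance, inferInstance, t1, inferInstance, t2,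
    inferInstance, n1, n2, qaEquiv ρL D, qaConj k D, ⟨0, 1⟩, qaEquiv ρ D, qaEquiv σ D,
    qaConj k D, ?_⟩
  have hρL3 : ∀ t : L, ρL (ρL (ρL t)) = t := fun t => by
    apply (algebraMap L E).injective
    rw [← H.ρL', ← H.ρL', ← H.ρL', H.ρ3]
  constructor
  · exact QuadraticAlgebra.finrank_eq_two _ _
  · intro x
    exact QuadraticAlgebra.ext (hρL3 _) (hρL3 _)
  · intro t
    exact QuadraticAlgebra.ext rfl (map_zero ρL)
  · intro t
    exact QuadraticAlgebra.ext rfl neg_zero
  · intro x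
    exact QuadraticAlgebra.ext rfl (neg_neg _)
  · intro x
    exact QuadraticAlgebra.ext rfl (map_neg ρL _).symm
  · refine QuadraticAlgebra.ext ?_ ?_
    · change (0 : L) * 0 + algebraMap k L D * 1 * 1 = algebraMap k L D
      ring
    · change (0 : L) * 1 + 1 * 0 + 0 * 1 * 1 = 0
      ring
  · exact QuadraticAlgebra.ext (map_zero ρL) (map_one ρL)
  · refine QuadraticAlgebra.ext ?_ rfl
    change (0 : L) = -0
    rw [neg_zero]
  · intro x
    exact QuadraticAlgebra.ext (H.ρ3 _) (H.ρ3 _)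
  · intro x
    exact QuadraticAlgebra.ext (H.σ2 _) (H.σ2 _)
  · intro x
    exact QuadraticAlgebra.ext rfl (neg_neg _)
  · intro x
    exact QuadraticAlgebra.ext (H.comm _) (H.comm _)
  · intro x
    exact QuadraticAlgebra.ext rfl (map_neg ρ _).symm
  · intro x
    exact QuadraticAlgebra.ext rfl (map_neg σ _)
  · intro x
    exact QuadraticAlgebra.ext rfl (map_zero ρ)
  · intro x
    exact QuadraticAlgebra.ext rfl (map_zero σ)
  · intro x
    exact QuadraticAlgebra.ext rfl neg_zero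
  · intro x
    exact QuadraticAlgebra.ext (H.ρL' _) (H.ρL' _)
  · intro x
    exact QuadraticAlgebra.ext (H.σL _) (H.σL _)
  · intro x
    exact QuadraticAlgebra.ext rfl (map_neg (algebraMap L E) _).symm
  · intro x hx
    have h1 : -x.im = x.im := congrArg QuadraticAlgebra.im hx
    have h2 : (2 : E) ≠ 0 := NeZero.ne 2
    have h3 : x.im = 0 := by
      have h : (2 : E) * x.im = 0 := by linear_combination -h1
      rcases mul_eq_zero.mp h with h | h
      · exact absurd h h2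
      · exact h
    exact ⟨x.re, QuadraticAlgebra.ext rfl h3.symm⟩
  · intro x hx
    obtain ⟨t, ht⟩ := H.fix_σ (congrArg QuadraticAlgebra.re hx)
    obtain ⟨s, hs⟩ := H.fix_σ (congrArg QuadraticAlgebra.im hx)
    exact ⟨⟨t, s⟩, QuadraticAlgebra.ext ht hs⟩

section tow

variable {D : k} {E1 O : Type} [Field E1] [Field O] [Algebra k E1] [Algebra L E1] [Algebra k O]
  [Algebra L O] [Algebra E O] [Algebra E1 O] [IsScalarTower k L O] [IsScalarTower L E O]
  {ρ1 σ1 : E1 ≃ₐ[k] E1} {α1 : E1} {ρ' σ' τ' : O ≃ₐ[k] O}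

include H in
omit [IsScalarTower k L O] in
theorem Tow.exists_L (T : Tow ρ σ ρL D ρ1 σ1 α1 ρ' σ' τ') {x : O} (h1 : σ' x = x)
    (h2 : τ' x = x) : ∃ t : L, algebraMap L O t = x := by
  obtain ⟨y, rfl⟩ := T.fixτ x h2
  rw [T.σE] at h1
  obtain ⟨t, rfl⟩ := H.fix_σ ((algebraMap E O).injective h1)
  exact ⟨t, IsScalarTower.algebraMap_apply L E O t⟩

include H in
theorem Tow.exists_k [CharZero k] (T : Tow ρ σ ρL D ρ1 σ1 α1 ρ' σ' τ') {x : O}
    (h0 : ρ' x = x) (h1 : σ' x = x) (h2 : τ' x = x) : ∃ t : k, algebraMap k O t = x := by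
  obtain ⟨t, rfl⟩ := T.exists_L H h1 h2
  have h3 : ρL t = t := by
    rw [IsScalarTower.algebraMap_apply L E O, T.ρE, H.ρL'] at h0
    exact (algebraMap L E).injective ((algebraMap E O).injective h0)
  obtain ⟨r, rfl⟩ := E6I.rho_fix H.h3 H.ρ1 h3
  exact ⟨r, IsScalarTower.algebraMap_apply k L O r⟩

end tow

end main

end Vale.Agent.P011.D4T
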