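import Vale.Agent.P011.D4.TopS
import Vale.Agent.P011.Arith.Schilling

/-!
Closeness at a place of a number field.
-/

open NumberField IsDedekindDomain Topology Filter

namespace Vale.Agent.P011.D4T

open Vale.Agent.P011.Arith Vale.Agent.P011.D4

section cont

variable {F : Type} [Field F]

/-- Continuity with respect to an absolute value. -/
theorem exists_delta (A : AbsoluteValue F ℝ) {ι : Type} [Finite ι] (f : (ι → F) → F)
    (hf : @Continuous _ _ (@Pi.topologicalSpace ι (fun _ => F) (fun _ => topA A)) (topA A) f)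
    (x0 : ι → F) {ε : ℝ} (hε : 0 < ε) : ∃ δ : ℝ, 0 < δ ∧ ∀ x : ι → F,
      (∀ i, A (x i - x0 i) < δ) → A (f x - f x0) < ε := by
  let _ := topA A
  have h1 : {z | A (z - f x0) < ε} ∈ 𝓝 (f x0) := by
    rw [nhds_topA, mem_comap]
    refine ⟨Metric.ball 0 ε, Metric.ball_mem_nhds _ hε, fun y hy => ?_⟩
    rw [Set.mem_preimage, Metric.mem_ball, Real.dist_eq, sub_zero,
      abs_of_nonneg (A.nonneg _)] at hy
    exact hy
  have h2 : f ⁻¹' {z | A (z - f x0) < ε} ∈ 𝓝 x0 := hf.continuousAt h1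
  rw [nhds_pi, Filter.mem_pi'] at h2
  obtain ⟨I, t, ht, htU⟩ := h2
  have key : ∀ i, ∃ δ : ℝ, 0 < δ ∧ ∀ y, A (y - x0 i) < δ → y ∈ t i := by
    intro i
    have h3 := ht i
    rw [nhds_topA, mem_comap] at h3
    obtain ⟨V, hV, hVt⟩ := h3
    obtain ⟨δ, hδ, hb⟩ := Metric.mem_nhds_iff.mp hV
    refine ⟨δ, hδ, fun y hy => hVt (hb ?_)⟩
    rw [Metric.mem_ball, Real.dist_eq, sub_zero, abs_of_nonneg (A.nonneg _)]
    exact hy
  choose δ hδ h using key
  by_cases hne : Nonempty ι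
  · obtain ⟨i0, hi0⟩ := Finite.exists_min δ
    exact ⟨δ i0, hδ _, fun x hx => htU (fun i _ => h i _ ((hx i).trans_le (hi0 i)))⟩
  · refine ⟨1, one_pos, fun x _ => htU (fun i _ => absurd ⟨i⟩ hne)⟩

end cont

variable {F : Type} [Field F] [NumberField F]

theorem exists_small_elt (p : Pl F) {ε : ℝ} (hε : 0 < ε) : ∃ η : F, η ≠ 0 ∧ plAbv p η < ε := by
  obtain ⟨x, hx0, hx1⟩ : ∃ x : F, x ≠ 0 ∧ plAbv p x < 1 := by
    obtain ⟨x, hx0, hx1⟩ := plAbv_nontrivial p
    rcases lt_or_gt_of_ne hx1 with h | h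
    · exact ⟨x, hx0, h⟩
    · refine ⟨x⁻¹, inv_ne_zero hx0, ?_⟩
      rw [map_inv₀]
      exact inv_lt_one_of_one_lt₀ h
  obtain ⟨n, hn⟩ := exists_pow_lt_of_lt_one hε hx1
  exact ⟨x ^ n, pow_ne_zero _ hx0, by rwa [map_pow]⟩

/-- Local squares are limits of squares. -/
theorem exists_sq_near (p : Pl F) {l : Fˣ} (hl : l ∈ LSp p) {ε : ℝ} (hε : 0 < ε) :
    ∃ t : F, plAbv p (t ^ 2 - l) < ε := by
  rcases p with v | φ
  · obtain ⟨η, hη0, hη⟩ := exists_small_elt (Sum.inl v : Pl F) hε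
    have hl0 : v.valuation F (l : F) ≠ 0 := (Valuation.ne_zero_iff _).mpr l.ne_zero
    have hη1 : v.valuation F η ≠ 0 := (Valuation.ne_zero_iff _).mpr hη0
    obtain ⟨y, hy⟩ := LS_newton' (w := v.valuation F) hl
      (γ := min 1 (v.valuation F (η / l))) (lt_min one_pos (zero_lt_iff.mpr (by
        rw [map_div₀]
        exact div_ne_zero hη1 hl0))).ne'
    obtain ⟨h1, h2⟩ := lt_min_iff.mp hy
    have hy0 : (y : F) ≠ 0 := y.ne_zero
    have h3 := (v.valuation F).map_one_add_of_lt (x := (l : F) / (y : F) ^ 2 - 1) h1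
    rw [add_sub_cancel, map_div₀, map_pow,
      div_eq_one_iff_eq (pow_ne_zero 2 ((Valuation.ne_zero_iff _).mpr hy0))] at h3
    refine ⟨y, lt_trans ?_ hη⟩
    rw [plAbv_lt]
    have e : (y : F) ^ 2 - l = -(((l : F) / (y : F) ^ 2 - 1) * y ^ 2) := by
      field_simp
      ring
    rw [e, Valuation.map_neg, map_mul, map_pow, ← h3]
    rw [map_div₀, lt_div_iff₀ (zero_lt_iff.mpr hl0)] at h2
    exact h2
  · have hl' : 0 < φ l := hl
    obtain ⟨s, hs⟩ : ∃ s, s = Real.sqrt (φ l) := ⟨_, rfl⟩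
    have hs2 : s ^ 2 = φ l := by rw [hs]; exact Real.sq_sqrt hl'.le
    have hs0 : 0 ≤ s := by rw [hs]; exact Real.sqrt_nonneg _
    obtain ⟨q, hq1, hq2⟩ := exists_rat_btwn (show s < s + min 1 (ε / (2 * s + 2)) by
      have : 0 < min 1 (ε / (2 * s + 2)) := lt_min one_pos (by positivity)
      linarith)
    refine ⟨(q : F), ?_⟩
    rw [plAbv_inr, map_sub, map_pow, map_ratCast, ← hs2]
    have h1 : (q : ℝ) - s < 1 := by
      have := min_le_left (1 : ℝ) (ε / (2 * s + 2))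
      linarith
    have h2 : (q : ℝ) - s < ε / (2 * s + 2) := by
      have := min_le_right (1 : ℝ) (ε / (2 * s + 2))
      linarith
    rw [lt_div_iff₀ (by positivity)] at h2
    rw [abs_lt]
    constructor <;> nlinarith

/-- Elements close to `y` are in the local square class of `y`. -/
theorem LSp_of_near (p : Pl F) (y : Fˣ) : ∃ δ : ℝ, 0 < δ ∧ ∀ x : Fˣ,
    plAbv p ((x : F) - y) < δ → x * y ∈ LSp p := by
  rcases p with v | φ
  · refine ⟨plAbv (Sum.inl v) (4 * (y : F)),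
      (plAbv (Sum.inl v)).pos (mul_ne_zero (by norm_num) y.ne_zero), fun x hx => ?_⟩
    rw [plAbv_lt, map_mul] at hx
    have hy0 : v.valuation F (y : F) ≠ 0 := (Valuation.ne_zero_iff _).mpr y.ne_zero
    have h1 : x / y ∈ LS (v.valuation F) := by
      refine LS_of_close ?_
      have e : ((x / y : Fˣ) : F) - 1 = ((x : F) - y) / y := by
        rw [Units.val_div_eq_div_val]
        have := y.ne_zero
        field_simp
      rw [e, map_div₀, div_lt_iff₀ (zero_lt_iff.mpr hy0)]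
      exact hx
    have h2 := mul_mem h1 (sq_mem_LS (w := v.valuation F) y)
    have e : x / y * y ^ 2 = x * y := by
      rw [pow_two, ← mul_assoc, div_mul_cancel]
    rw [e] at h2
    exact h2
  · refine ⟨|φ y|, abs_pos.mpr ((map_ne_zero φ).mpr y.ne_zero), fun x hx => ?_⟩
    rw [plAbv_inr, map_sub] at hx
    change 0 < φ ((x * y : Fˣ) : F)
    rw [Units.val_mul, map_mul]
    rcases lt_or_gt_of_ne ((map_ne_zero φ).mpr y.ne_zero) with h | h
    · rw [abs_of_neg h, abs_lt] at hx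
      exact mul_pos_of_neg_of_neg (by linarith) h
    · rw [abs_of_pos h, abs_lt] at hx
      exact mul_pos (by linarith) h

section conj

variable {k L : Type} [Field k] [NumberField k] [Field L] [NumberField L] [Algebra k L]

/-- The conjugate place. -/
theorem exists_cj (ρ : L ≃ₐ[k] L) (S : Set (HeightOneSpectrum (𝓞 k))) (p : Pl L)
    (hp : p ∈ SP (ov L S)) : ∃ q : Pl L, q ∈ SP (ov L S) ∧ ∀ ε : ℝ, 0 < ε → ∃ δ : ℝ, 0 < δ ∧
      ∀ z : L, plAbv q z < δ → plAbv p (ρ z) < ε := by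
  rcases p with w | ψ
  · obtain ⟨w', hw', hv'⟩ := exists_conj (F := k) ρ.symm w
    refine ⟨Sum.inl w', ?_, fun ε hε => ?_⟩
    · rw [inl_mem_SP] at hp ⊢
      obtain ⟨v, hv, h⟩ := hp
      exact ⟨v, hv, (hv' v).mp h⟩
    · obtain ⟨η, hη0, hη⟩ := exists_small_elt (Sum.inl w : Pl L) hε
      refine ⟨plAbv (Sum.inl w') (ρ.symm η),
        (plAbv (Sum.inl w')).pos ((map_ne_zero ρ.symm).mpr hη0), fun z hz => lt_trans ?_ hη⟩
      rw [plAbv_lt] at hz ⊢
      rw [hw'] at hz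
      have h1 := hw' (ρ z)
      rw [AlgEquiv.symm_apply_apply] at h1
      rwa [← h1]
  · exact ⟨Sum.inr (ψ.comp (ρ : L →+* L)), inr_mem_SP, fun ε hε => ⟨ε, hε, fun z hz => hz⟩⟩

end conj

end Vale.Agent.P011.D4T
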